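import Vale.Agent.P287T.Sw.Ht3

/-!
# Semistability from the lattice of charges: units and Farey sums
-/

set_option linter.unusedSectionVars false

open CategoryTheory CategoryTheory.Pretriangulated CategoryTheory.Limits

namespace Vale.Agent.P287T.Bs

open Vale.Agent.P294 Vale.Agent.P287T.Op Vale.Agent.P287T.Sw

universe v u

variable {C : Type u} [Category.{v} C] [Preadditive C] [HasZeroObject C]
  [HasShift C ℤ] [∀ n : ℤ, (shiftFunctor C n).Additive] [Pretriangulated C] [IsTriangulated C]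

variable {σ : Slic C} {Z : C → ℂ} {r : C → ℕ} {c α β φ m1 m2 : ℝ}

theorem sin_pos {α β : ℝ} (h1 : α < β) (h2 : β < α + 1) : 0 < Real.sin (Real.pi * (β - α)) :=
  Real.sin_pos_of_pos_of_lt_pi (by nlinarith [Real.pi_pos]) (by nlinarith [Real.pi_pos])

theorem sin_neg {α β : ℝ} (h1 : α < β) (h2 : β < α + 1) : Real.sin (Real.pi * (α - β)) < 0 := by
  rw [show Real.pi * (α - β) = -(Real.pi * (β - α)) by ring, Real.sin_neg]
  linarith [sin_pos h1 h2]

theorem zero_of {s t : ℝ} (h : s < t) {X : C} (h1 : σ.U t X) (h2 : σ.Vc s X) : IsZero X :=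
  (σ.ts t).isZero h1 (h2 t h)

/-- the charge lattice has a basis on the rays `α < β < α + 1` -/
structure Bas (Z : C → ℂ) (α β m1 m2 : ℝ) : Prop where
  lt : α < β
  lt1 : β < α + 1
  p1 : 0 < m1
  p2 : 0 < m2
  lat : ∀ X, ∃ p q : ℤ, Z X = p * (m1 * ray α) + q * (m2 * ray β)

theorem Bas.latD (B : Bas Z α β m1 m2) :
    ∃ a b : C → ℤ, LatD Z (m1 * ray α) (m2 * ray β) a b := by
  choose a b h using B.lat
  refine ⟨a, b, ?_, h⟩
  have h1 := sin_pos B.lt B.lt1
  rw [mul_sub, Real.sin_sub] at h1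
  simp only [ray_eq, Complex.mul_re, Complex.mul_im, Complex.ofReal_re, Complex.ofReal_im]
  have := mul_pos (mul_pos B.p1 B.p2) h1
  intro h0
  linarith

theorem Bas.win (B : Bas Z α β m1 m2) (h : Stab σ Z r c) {a b : C → ℤ}
    (L : LatD Z (m1 * ray α) (m2 * ray β) a b) {X : C} (h1 : σ.U α X) (h2 : σ.Vc β X) :
    0 ≤ a X ∧ 0 ≤ b X ∧ (a X = 0 → σ.U β X) ∧ (b X = 0 → σ.Vc α X) := by
  have k1 := lam_hi h h1 (h2 _ B.lt1)
  have k2 := lam_lo h ⟨α, by linarith [B.lt1], h1⟩ h2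
  rw [L.eq, lam_int, lam_mul_ray, lam_mul_ray] at k1 k2
  simp only [sub_self, mul_zero, Real.sin_zero, zero_add, add_zero] at k1 k2
  have s1 := mul_pos B.p2 (sin_pos B.lt B.lt1)
  have s2 := mul_neg_of_pos_of_neg B.p1 (sin_neg B.lt B.lt1)
  have a0 : (0 : ℝ) ≤ a X := by nlinarith [k2.1]
  have b0 : (0 : ℝ) ≤ b X := by nlinarith [k1.1]
  exact ⟨by exact_mod_cast a0, by exact_mod_cast b0, fun e => k2.2 (by simp [e]),
    fun e => k1.2 (by simp [e])⟩

/-- an object of the window whose charge is the sum of the basis vectors -/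
theorem Bas.cut (B : Bas Z α β m1 m2) (h : Stab σ Z r c) {E : C} (h1 : σ.U α E) (h2 : σ.Vc β E)
    (hZ : Z E = m1 * ray α + m2 * ray β) (k1 : α < φ) (k2 : φ < β) (hl : lam φ (Z E) = 0) :
    σ.P φ E ∨ ∃ X Y, A2bTr X E Y ∧ σ.P β X ∧ σ.P α Y ∧ Z X = m2 * ray β := by
  obtain ⟨a, b, L⟩ := B.latD
  have l1 := B.lt1
  have hE : a E = 1 ∧ b E = 1 := by
    have := lat_inj L.ind (p := a E - 1) (q := b E - 1) (by
      rw [L.eq] at hZ
      push_cast
      linear_combination hZ)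
    omega
  obtain ⟨X, Y, t, hX, hY⟩ := trunc σ φ E
  have x1 : σ.U α X := σ.anti k1.le _ hX
  have x2 : σ.Vc β X := subVc σ t h2 hY (by linarith)
  have y1 : σ.U α Y := quotU σ t h1 hX (by linarith)
  have y2 : σ.Vc β Y := σ.V_le_Vc k2.le hY
  obtain ⟨a1, b1, c1, d1⟩ := B.win h L x1 x2
  obtain ⟨a2, b2, c2, d2⟩ := B.win h L y1 y2
  have ea := addZ (L.aadd h.add) t
  have eb := addZ (L.badd h.add) t
  by_cases hb : b X = 0
  · obtain ⟨e⟩ := tr_iso2 t (zero_of k1 hX (d1 hb))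
    have := h.lam_neg' (s := φ) (by linarith) le_rfl h1 ((σ.ts φ).isoV e.symm hY)
      (L.ne h.add (by rw [hE.1]; exact isCoprime_one_left))
    linarith
  by_cases ha : a Y = 0
  · obtain ⟨e⟩ := tr_iso1 t ((σ.ts φ).isZero (σ.anti k2.le _ (c2 ha)) hY)
    have hU := (σ.ts φ).isoU e hX
    exact Or.inl ⟨hU, (lam_hi h hU (h2 _ (by linarith))).2 hl⟩
  refine Or.inr ⟨X, Y, t, ⟨c1 (by omega), x2⟩, ⟨y1, d2 (by omega)⟩, ?_⟩
  rw [L.eq, show a X = 0 by omega, show b X = 1 by omega]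
  simp

/-- **Farey**: a nontrivial extension of two semistable objects whose charges are a basis -/
theorem Bas.farey (B : Bas Z α β m1 m2) (h : Stab σ Z r c) {X E Y : C} {f : X ⟶ E} {g : E ⟶ Y}
    {d : Y ⟶ X⟦(1 : ℤ)⟧} (hT : Triangle.mk f g d ∈ distTriang C) (hX : σ.P α X) (hY : σ.P β Y)
    (zX : Z X = m1 * ray α) (zY : Z Y = m2 * ray β) (hd : d ≠ 0) :
    ∃ φ, α < φ ∧ φ < β ∧ σ.P φ E := by
  have t : A2bTr X E Y := ⟨_, _, _, hT⟩
  have hZ : Z E = m1 * ray α + m2 * ray β := by rw [addC h.add t, zX, zY]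
  have l0 := B.lt
  have l1 := B.lt1
  obtain ⟨φ, ⟨k1, k2⟩, hl⟩ : (0 : ℝ) ∈ (fun s => lam s (Z E)) '' Set.Ioo α β := by
    refine intermediate_value_Ioo' l0.le (Continuous.continuousOn (by
      simp only [lam_eq]; fun_prop)) ⟨?_, ?_⟩
    · rw [hZ, lam_add, lam_mul_ray, lam_mul_ray]
      simpa using mul_neg_of_pos_of_neg B.p1 (sin_neg l0 l1)
    · rw [hZ, lam_add, lam_mul_ray, lam_mul_ray]
      simpa using mul_pos B.p2 (sin_pos l0 l1)
  refine ⟨φ, k1, k2, (B.cut h ((σ.ts α).a2bTrU t hX.1 (σ.anti l0.le _ hY.1))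
    (Vc_ext t (fun s hs => hX.2 s (by linarith)) hY.2) hZ k1 k2 hl).resolve_right ?_⟩
  rintro ⟨X', Y', ⟨i, j, e, hT'⟩, hX', hY', zX'⟩
  obtain ⟨a, b, L⟩ := B.latD
  have co : ∀ {W : C}, Z W = m2 * ray β → IsCoprime (a W) (b W) := fun {W} hW => by
    have := lat_inj L.ind (p := a W) (q := b W - 1) (by
      rw [L.eq] at hW
      push_cast
      linear_combination hW)
    rw [show b W = 1 by omega]
    exact isCoprime_one_right
  have hne : i ≫ g ≠ 0 := fun h0 => by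
    obtain ⟨u, hu⟩ := Triangle.coyoneda_exact₂ _ hT i h0
    have u0 : u = 0 := (σ.ts β).hom hX'.1 (hX.2 β l0) u
    have i0 : i = 0 := by rw [hu, u0]; exact zero_comp
    obtain ⟨w, hw⟩ := Triangle.coyoneda_exact₂ _ (inv_rot_of_distTriang _ hT') (𝟙 X')
      (by exact (Category.id_comp _).trans i0)
    have w0 : w = 0 := (σ.ts β).hom hX'.1 ((σ.ts β).shV (hY'.2 β l0)) w
    exact L.ne h.add (co zX') ((IsZero.iff_id_eq_zero X').2 (by rw [hw, w0]; exact zero_comp))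
  have := L.schur h hX' hY (co zX') (co zY) hne
  have h0 : g ≫ d = 0 := comp_distTriang_mor_zero₂₃ _ hT
  apply hd
  rw [← cancel_epi (i ≫ g), Category.assoc, h0, comp_zero, comp_zero]

theorem ray_third' : ray (1 / 3) ^ 2 = ray (1 / 3) - 1 := by
  have h3 : (√3 : ℝ) * √3 = 3 := Real.mul_self_sqrt (by norm_num)
  rw [ray_eq, show Real.pi * (1 / 3) = Real.pi / 3 by ring, Real.cos_pi_div_three,
    Real.sin_pi_div_three]
  apply Complex.ext <;> simp [pow_two] <;> nlinarith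

/-- **units**: a unit of the lattice of charges in a window of half width `< 1/3` -/
theorem unit_ss (h : Stab σ Z r c) {m s t : ℝ} (hm : 0 < m)
    (hL : ∀ X, ∃ p q : ℤ, Z X = m * ray φ * (p + q * ray (1 / 3))) {E : C} (h1 : σ.U s E)
    (h2 : σ.Vc t E) (hs : φ - 1 / 3 ≤ s) (ht : t < φ + 1 / 3) (hZ : Z E = m * ray φ) :
    σ.P φ E := by
  have e3 := ray_third'
  have e1 : ray φ = ray (φ - 1 / 3) * ray (1 / 3) := by rw [← ray_add]; congr 1; ring
  have e2 : ray (φ + 1 / 3) = ray (φ - 1 / 3) * ray (1 / 3) ^ 2 := by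
    rw [ray_add, e1]; ring
  have B : Bas Z (φ - 1 / 3) (φ + 1 / 3) m m := ⟨by linarith, by linarith, hm, hm, fun X => by
    obtain ⟨p, q, e⟩ := hL X
    refine ⟨p, p + q, ?_⟩
    rw [e, e2, e1]
    push_cast
    linear_combination (-(p : ℂ) * m * ray (φ - 1 / 3)) * e3⟩
  refine (B.cut h (σ.anti hs _ h1) (fun s hs => h2 s (by linarith)) ?_ (by linarith) (by linarith)
    (by rw [hZ, lam_mul_ray]; simp)).resolve_right ?_
  · rw [hZ, e2, e1]
    linear_combination (-(m : ℂ) * ray (φ - 1 / 3)) * e3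
  · rintro ⟨X, Y, tr, hX, hY, zX⟩
    have k : σ.Vc (max t φ) X := subVc σ tr (fun s hs => h2 s (lt_of_le_of_lt (le_max_left _ _) hs))
      (hY.2 φ (by linarith)) (by linarith [le_max_right t φ])
    have := h.add.zeroC (zero_of (max_lt ht (by linarith)) hX.1 k)
    rw [zX] at this
    exact mul_ne_zero (by exact_mod_cast hm.ne') (ray_ne_zero _) this

end Vale.Agent.P287T.Bs
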