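import Vale.Agent.P287T.Bs.Hq
import Vale.Agent.P287T.G3.G

/-!
# The matrix factorizations of the lines `y = - z t` and their morphisms
-/

open Matrix CategoryTheory CategoryTheory.Limits CategoryTheory.Pretriangulated Polynomial Module

namespace Vale.Agent.P287T.G3.Bs

open Vale.Agent.P287T.G3.E1a

variable {A : GCtx} {W : A.S}

theorem sc_mem {E F : MF A W} (e : E.ι ≃ F.ι) (hp : ∀ i, F.p (e i) = E.p i) (u : E.ι → A.S)
    (hu : ∀ i a, u i ∈ A.H a a) (hd : ∀ i j, F.d (e i) (e j) * u j = u i * E.d i j) :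
    perm A.S e * diagonal u ∈ Z0 E F := by
  refine ⟨fun x y => ?_, ?_⟩
  · rw [mul_diagonal, perm]
    split_ifs with h
    · rw [h, hp, zero_vadd, one_mul]
      exact hu _ _
    · rw [zero_mul]
      exact zero_mem _
  · rw [← Matrix.mul_assoc, mul_perm, Matrix.mul_assoc, perm_mul]
    ext x y
    rw [mul_diagonal, submatrix_apply, submatrix_apply, id, id, diagonal_mul, ← hd,
      e.apply_symm_apply]

theorem sc_mul {S ι κ : Type} [CommRing S] [Fintype ι] [DecidableEq ι] [Fintype κ] [DecidableEq κ]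
    (e : ι ≃ κ) (u : ι → S) (v : κ → S) (h : ∀ i, v (e i) * u i = 1) :
    perm S e.symm * diagonal v * (perm S e * diagonal u) = 1 := by
  rw [Matrix.mul_assoc, perm_mul, perm_mul]
  ext x y
  rw [submatrix_apply, diagonal_mul, submatrix_apply, Equiv.symm_symm, e.symm_apply_apply, id, id,
    diagonal_apply, Matrix.one_apply]
  split_ifs
  · exact h x
  · exact mul_zero _

/-- isomorphism from a bijection of bases and a rescaling -/
theorem sc_iso {E F : MF A W} (e : E.ι ≃ F.ι) (hp : ∀ i, F.p (e i) = E.p i) (u v : E.ι → A.S)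
    (hu : ∀ i a, u i ∈ A.H a a) (hv : ∀ i a, v i ∈ A.H a a) (h : ∀ i, v i * u i = 1)
    (hd : ∀ i j, F.d (e i) (e j) * u j = u i * E.d i j) : Nonempty (E ≅ F) := by
  refine ⟨isoOfHtpy _ (sc_mem e hp u hu hd) _ (sc_mem e.symm
    (fun i => by rw [← hp, e.apply_symm_apply]) (fun i => v (e.symm i)) (fun i => hv _)
    fun i j => ?_) (sc_mul e u _ fun i => by rw [e.symm_apply_apply, h]) ?_⟩
  · have := hd (e.symm i) (e.symm j)
    rw [e.apply_symm_apply, e.apply_symm_apply] at this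
    linear_combination (-(v (e.symm i) * v (e.symm j))) * this +
      v (e.symm i) * F.d i j * h (e.symm j) - E.d (e.symm i) (e.symm j) * v (e.symm j) * h (e.symm i)
  · have := sc_mul e.symm (fun i => v (e.symm i)) u fun i => by rw [mul_comm, h]
    rw [Equiv.symm_symm] at this
    rw [this, sub_self]
    exact zero_mem _

theorem quo_cube (V l : A.S) : quoW A (C V + X ^ 3) l = X ^ 2 + X * C l + C l ^ 2 := by
  apply (monic_X_sub_C l).isRegular.left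
  change (X - C l) * quoW A _ l = (X - C l) * _
  rw [quoW_mul]
  simp only [eval_add, eval_C, eval_pow, eval_X, map_add, map_pow]
  ring

theorem ev_EvR {V l : A.S} (l' : A.S) (hl : ∀ a, l ∈ A.H (A.en 2 +ᵥ a) a)
    (hW : ∀ a, (inP A (C V + X ^ 3)) ∈ A.P.H (A.P.en 6 +ᵥ a) a) (Y : MF A (evW A (C V + X ^ 3) l)) :
    mEv l' (show Matrix (Y.ι ⊕ Y.ι) (Y.ι ⊕ Y.ι) A.S[X] from (EvR hl hW Y).d) =
      fromBlocks Y.d ((l' - l) • 1) ((l' ^ 2 + l' * l + l ^ 2) • 1) (-Y.d) := by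
  change mEv l' (fromBlocks (Y.d.map C) ((X - C l) • 1) ((quoW A _ l) • 1) (-(Y.d.map C))) = _
  rw [quo_cube]
  ext1 i j
  rcases i with i | i <;> rcases j with j | j
  · simp [mEv]
  · by_cases h : i = j <;> simp [mEv, Matrix.one_apply, h]
  · by_cases h : i = j <;> simp [mEv, Matrix.one_apply, h]
    ring
  · simp [mEv]

theorem p_cube {R : Type} [CommRing R] (W : R) {a : R} (h : a ^ 3 = 1) :
    (C W + X ^ 3 + (C (-a) * X) ^ 3 : R[X]) = C W := by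
  have := congrArg (C : R →+* R[X]) h
  rw [map_pow, map_one] at this
  rw [map_neg]
  linear_combination (-X ^ 3) * this

theorem p_sub {R : Type} [CommRing R] {a b c : R} (h : c = b - a) :
    (C (-a) * X - C (-b) * X : R[X]) = C c * X ^ 1 := by
  simp only [h, map_neg, map_sub]
  ring

theorem p_quo {R : Type} [CommRing R] {a b c : R} (h : c = a ^ 2 + a * b + b ^ 2) :
    ((C (-a) * X) ^ 2 + C (-a) * X * (C (-b) * X) + (C (-b) * X) ^ 2 : R[X]) = C c * X ^ 2 := by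
  simp only [h, map_neg, map_add, map_mul, map_pow]
  ring

theorem EvR_iso {Wt : A.S[X]} {l : A.S} (hl : ∀ a, l ∈ A.H (A.en 2 +ᵥ a) a)
    (hW : ∀ a, (inP A Wt) ∈ A.P.H (A.P.en 6 +ᵥ a) a) {Y Y' : MF A (evW A Wt l)} (e : Y ≅ Y') :
    Nonempty (EvR hl hW Y ≅ EvR hl hW Y') := by
  obtain ⟨R, -, hR⟩ := Ev_adj hl hW
  obtain ⟨e3⟩ := hR Y
  obtain ⟨e4⟩ := hR Y'
  exact ⟨e3.symm ≪≫ R.mapIso e ≪≫ e4⟩

variable [GCtx.Aug A]

theorem ev_smul {Wt : A.S[X]} {l : A.S} (hl : ∀ a, l ∈ A.H (A.en 2 +ᵥ a) a)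
    (E F : MF A.P (inP A Wt)) (z : ℂ) (f : E ⟶ F) :
    (Ev A Wt l hl).functor.map (z • f) = z • (Ev A Wt l hl).functor.map f := by
  induction f using hom_ind with
  | h f hf =>
    rw [smul_mk, CHom.functor_map_mk, CHom.functor_map_mk]
    refine Eq.trans ?_ (smul_mk z ((Ev A Wt l hl).mat_Z0 hf)).symm
    refine mk_congr _ ?_
    ext i j
    exact Polynomial.eval_mul.trans (congrArg (· * _) Polynomial.eval_C)

/-- the linear adjunction -/
noncomputable def evAdj {Wt : A.S[X]} {l : A.S} (hl : ∀ a, l ∈ A.H (A.en 2 +ᵥ a) a)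
    (hW : ∀ a, (inP A Wt) ∈ A.P.H (A.P.en 6 +ᵥ a) a) (E : MF A.P (inP A Wt))
    (Y : MF A (evW A Wt l)) : (E ⟶ EvR hl hW Y) ≃ₗ[ℂ] ((Ev A Wt l hl).functor.obj E ⟶ Y) :=
  LinearEquiv.ofBijective
    { toFun := fun f => (Ev A Wt l hl).functor.map f ≫ eps hl hW Y
      map_add' := fun f g => by rw [Functor.map_add, Preadditive.add_comp]
      map_smul' := fun z f => by rw [ev_smul, Linear.smul_comp, RingHom.id_apply] }
    (bij hl hW E Y)

variable (A) in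
/-- the linear form `- z t` -/
noncomputable def lz (z : ℂ) : A.P.S := (C (-GCtx.Aug.cst z) * X : A.S[X])

theorem lz_mem (z : ℂ) (a : A.P.L) : lz A z ∈ A.P.H (A.P.en 2 +ᵥ a) a :=
  A.P.mul_mem (C_mem_P (neg_mem (GCtx.Aug.cst_mem (A := A) a _))) (X_mem_P (A := A) a)

theorem ev_lz {z : ℂ} (hz : z ^ 3 = 1) :
    evW A.P (C (WP A W) + X ^ 3) (lz A z) = inP A (C W) := by
  rw [evW, eval_add, eval_C, eval_pow, eval_X]
  exact p_cube W (by rw [← map_pow, hz, map_one])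

/-- the product with the line `y = - z t` -/
noncomputable def TL (hW : A.IsPot W) {z : ℂ} (hz : z ^ 3 = 1) (E : MF A W) :
    MF A.P.P (WP A.P (WP A W)) :=
  EvR (A := A.P) (Wt := C (WP A W) + X ^ 3) (lz_mem z) (e3_P_mem (e3_P_mem hW)) (Cf (ev_lz hz) E)

variable (hW : A.IsPot W) {z w : ℂ} (hz : z ^ 3 = 1) (hw : w ^ 3 = 1)

theorem Zf_TL (E : MF A W) : Zf (TL hW hz E) = (1 + P294.ray (1 / 3)) * Zf E :=
  Zf_EvR (A := A.P) (Wt := C (WP A W) + X ^ 3) (lz_mem z) (e3_P_mem (e3_P_mem hW)) _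

/-- the adjunction -/
noncomputable def TL_adj (E : MF A.P.P (WP A.P (WP A W))) (Y : MF A W) : (E ⟶ TL hW hz Y) ≃ₗ[ℂ]
    ((Ev A.P (C (WP A W) + X ^ 3) (lz A z) (lz_mem z)).obj E ⟶ Cf (ev_lz hz) Y) :=
  evAdj (A := A.P) (Wt := C (WP A W) + X ^ 3) (lz_mem z) (e3_P_mem (e3_P_mem hW)) E _

theorem TL_tw (m : ℤ) (E : MF A W) :
    Nonempty (tw (A.P.P.en m) (TL hW hz E) ≅ TL hW hz (tw (A.en m) E)) := by
  obtain ⟨e1⟩ := Cf_tw (ev_lz (W := W) hz) (A.en m) E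
  obtain ⟨e2⟩ := EvR_iso (A := A.P) (Wt := C (WP A W) + X ^ 3) (lz_mem z)
    (e3_P_mem (e3_P_mem hW)) e1
  obtain ⟨e3⟩ := EvR_tw (A := A.P) (Wt := C (WP A W) + X ^ 3) (lz_mem z)
    (e3_P_mem (e3_P_mem hW)) (A.P.en m) (Cf (ev_lz hz) E)
  exact ⟨e3.symm ≪≫ e2.symm⟩

/-- the sides -/
theorem TL_side (E : MF A W) (v : ZMod 3) :
    Nonempty (tgr v (IndO (TL hW hz E)) ≅ EvR (Wt := C W + X ^ 3) g2_hl (e3_P_mem hW)
      (castMF (evW_zero rfl).symm E)) := by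
  obtain ⟨e1⟩ := tgr_IndO (A := A.P) (W := WP A W) g2_hl rfl (TL hW hz E) v
  have h1 := ev_EvR (A := A.P) 0 (lz_mem z) (e3_P_mem (e3_P_mem hW)) (Cf (ev_lz (W := W) hz) E)
  have hc : (C (GCtx.Aug.cst (A := A) (z ^ 2)) * C (GCtx.Aug.cst (A := A) z) : A.S[X]) = 1 := by
    rw [mul_comm, ← C_mul, cst_cube hz, C_1]
  obtain ⟨e2⟩ := sc_iso (E := castMF (evW_zero rfl) ((Ev A.P (C (WP A W) + X ^ 3) 0 g2_hl).obj
      (TL hW hz E))) (F := EvR (Wt := C W + X ^ 3) g2_hl (e3_P_mem hW)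
      (castMF (evW_zero rfl).symm E)) (eX g2_hl (TL hW hz E))
    (by rintro ⟨i | i, _⟩ <;> rfl)
    (fun i => Sum.elim (fun _ => 1) (fun _ => (C (GCtx.Aug.cst (A := A) z) : A.S[X])) i.1)
    (fun i => Sum.elim (fun _ => 1) (fun _ => (C (GCtx.Aug.cst (A := A) (z ^ 2)) : A.S[X])) i.1)
    (by
      rintro ⟨i | i, _⟩ a
      exacts [A.P.one_mem a, C_mem_P (GCtx.Aug.cst_mem (A := A) a _)])
    (by
      rintro ⟨i | i, _⟩ a
      exacts [A.P.one_mem a, C_mem_P (GCtx.Aug.cst_mem (A := A) a _)])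
    (by
      rintro ⟨i | i, _⟩
      exacts [mul_one (M := A.S[X]) 1, hc])
    (by
      rintro ⟨i, _⟩ ⟨j, _⟩
      refine Eq.trans ?_ (congrArg (_ * ·) (congrFun (congrFun h1 i) j)).symm
      rw [map_pow, map_pow] at hc
      rcases i with i | i <;> rcases j with j | j
      · exact mul_comm (G := A.S[X]) _ _
      · change ((X - C 0) * (1 : Matrix E.ι E.ι A.S[X]) i j * C (GCtx.Aug.cst z) : A.S[X]) =
          1 * ((0 - C (-GCtx.Aug.cst z) * X) * (1 : Matrix E.ι E.ι A.S[X]) i j)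
        simp only [map_neg, map_zero]
        ring
      · change (quoW A (C W + X ^ 3) 0 * (1 : Matrix E.ι E.ι A.S[X]) i j * 1 : A.S[X]) =
          C (GCtx.Aug.cst z) * ((0 ^ 2 + 0 * (C (-GCtx.Aug.cst z) * X) +
            (C (-GCtx.Aug.cst z) * X) ^ 2) * (1 : Matrix E.ι E.ι A.S[X]) i j)
        rw [quo_cube]
        simp only [map_neg, map_zero]
        linear_combination (-(X ^ 2 * (1 : Matrix E.ι E.ι A.S[X]) i j)) * hc
      · exact mul_comm (G := A.S[X]) _ _)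
  exact ⟨e1.symm ≪≫ e2⟩

/-- the dimensions of the graded space of maps -/
def HD (X Y : MF A W) (f : ℤ → ℕ) : Prop :=
  ∀ m, Module.Finite ℂ (tw (A.en m) X ⟶ Y) ∧ finrank ℂ (tw (A.en m) X ⟶ Y) = f m

theorem HD.tw {X Y : MF A W} {f : ℤ → ℕ} (h : HD X Y f) {a b c : ℤ} (e : c = a + b) :
    Module.Finite ℂ (tw (A.en b) (tw (A.en a) X) ⟶ Y) ∧
      finrank ℂ (tw (A.en b) (tw (A.en a) X) ⟶ Y) = f c := by
  have i := Linear.homCongr ℂ (twAdd X (c := A.en c) (by rw [e, A.en_add])) (Iso.refl Y)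
  have := (h c).1
  exact ⟨Module.Finite.equiv i, i.finrank_eq.symm.trans (h c).2⟩

theorem fr_Q {V : A.P.S} (h : V = inP A (C W)) (E F : MF A W) (k : ℕ) {c : ℂ} (hc : c ≠ 0)
    {M : Type} [AddCommGroup M] [Module ℂ M]
    (i : M ≃ₗ[ℂ] (Qk h E k (fun a => GCtx.Aug.cst_mem a c) ⟶ Cf h F)) {g : Fin k → ℕ}
    (hg : ∀ n : Fin k, Module.Finite ℂ (tw (A.en (3 - 2 * k + 2 * (n : ℕ))) E ⟶ F) ∧
      finrank ℂ (tw (A.en (3 - 2 * k + 2 * (n : ℕ))) E ⟶ F) = g n) :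
    Module.Finite ℂ M ∧ finrank ℂ M = ∑ n, g n := by
  have j := (LinearEquiv.ofBijective _ (homQ h E F k (fun a => GCtx.Aug.cst_mem a c)
    (fun a => GCtx.Aug.cst_mem a c⁻¹) (by rw [← map_mul, inv_mul_cancel₀ hc, map_one]))).trans i.symm
  have := fun n => (hg n).1
  refine ⟨Module.Finite.equiv j, j.finrank_eq.symm.trans ?_⟩
  rw [Module.finrank_pi_fintype]
  exact Finset.sum_congr rfl fun n _ => (hg n).2

/-- two different lines -/
theorem HD.ne (hne : w ≠ z) {X Y : MF A W} {f : ℤ → ℕ} (h : HD X Y f) :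
    HD (TL hW hw X) (TL hW hz Y) fun m => f (m + 1) := by
  intro m
  obtain ⟨e1⟩ := TL_tw hW hw m X
  have h1 := ev_EvR (A := A.P) (lz A z) (lz_mem w) (e3_P_mem (e3_P_mem hW))
    (Cf (ev_lz (W := W) hw) (G3.tw (A.en m) X))
  have h2 : z ^ 2 + z * w + w ^ 2 = 0 := by
    refine mul_left_cancel₀ (sub_ne_zero.2 hne) ?_
    linear_combination hw - hz
  have h3 : lz A z - lz A w = inP A (C (GCtx.Aug.cst (A := A) (w - z)) * Polynomial.X ^ 1) :=
    p_sub (map_sub _ _ _)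
  have h4 : lz A z ^ 2 + lz A z * lz A w + lz A w ^ 2 = 0 :=
    (p_quo (c := 0) (by rw [← map_pow, ← map_pow, ← map_mul, ← map_add, ← map_add, h2,
      map_zero])).trans (by rw [C_0, zero_mul]; rfl)
  rw [h3, h4, zero_smul] at h1
  have e2 := permIso (E := (Ev A.P (C (WP A W) + Polynomial.X ^ 3) (lz A z) (lz_mem z)).obj
      (TL hW hw (G3.tw (A.en m) X)))
    (F := Qk (ev_lz hz) (G3.tw (A.en m) X) 1 fun a => GCtx.Aug.cst_mem a (w - z))
    (eX (lz_mem z) _) (by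
      rintro ⟨i | i, _⟩
      · rfl
      · exact congrArg (· +ᵥ _) (A.en_neg 1))
    fun i j => (congrFun (congrFun h1 i.1) j.1).symm
  refine (fr_Q (ev_lz hz) _ Y 1 (sub_ne_zero.2 hne) ((Linear.homCongr ℂ e1 (Iso.refl (TL hW hz Y))).trans
    ((TL_adj hW hz _ _).trans (Linear.homCongr ℂ e2 (Iso.refl _)))) (g := fun _ => f (m + 1))
    fun n => h.tw (by simp)).imp id fun e => e.trans (by simp)

/-- the same line -/
theorem HD.eq {X Y : MF A W} {f : ℤ → ℕ} (h : HD X Y f) :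
    HD (TL hW hz X) (TL hW hz Y) fun m => f m + f (m + 2) := by
  intro m
  obtain ⟨e1⟩ := TL_tw hW hz m X
  have h1 := ev_EvR (A := A.P) (lz A z) (lz_mem z) (e3_P_mem (e3_P_mem hW))
    (Cf (ev_lz (W := W) hz) (G3.tw (A.en m) X))
  have h2 : 3 * z ^ 2 ≠ 0 := mul_ne_zero (by norm_num) (pow_ne_zero _ fun e => by
    rw [e] at hz
    norm_num at hz)
  have h4 : lz A z ^ 2 + lz A z * lz A z + lz A z ^ 2 =
      inP A (C (GCtx.Aug.cst (A := A) (3 * z ^ 2)) * Polynomial.X ^ 2) :=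
    p_quo (by rw [map_mul, map_pow, map_ofNat]; ring)
  rw [sub_self, h4, zero_smul] at h1
  have h5 : ∀ i j, (C ((sg (A.chΓ (A.en 1)) • (G3.tw (A.en m) X).d) i j) : A.S[X]) =
      -C ((G3.tw (A.en m) X).d i j) := fun i j => by
    rw [A.chΓ_en, show sg 1 = -1 by decide, neg_smul, one_smul, Matrix.neg_apply, map_neg]
  have e2 := permIso (E := (Ev A.P (C (WP A W) + Polynomial.X ^ 3) (lz A z) (lz_mem z)).obj
      (TL hW hz (G3.tw (A.en m) X)))
    (F := Qk (ev_lz hz) (G3.tw (A.en 1) (G3.tw (A.en m) X)) 2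
      fun a => GCtx.Aug.cst_mem a (3 * z ^ 2))
    ((eX (lz_mem z) _).trans (Equiv.sumComm _ _)) (by
      rintro ⟨i | i, _⟩
      · exact vadd_neg_vadd (A.en 1) ((G3.tw (A.en m) X).p i)
      · rfl)
    (by
      rintro ⟨i, _⟩ ⟨j, _⟩
      refine Eq.trans ?_ (congrFun (congrFun h1 i) j).symm
      rcases i with i | i <;> rcases j with j | j
      · exact (congrArg Neg.neg (h5 i j)).trans (neg_neg _)
      · rfl
      · rfl
      · exact h5 i j)
  have e3 := (twAdd X (c := A.en (m + 1)) (A.en_add m 1)).symm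
  refine (fr_Q (ev_lz hz) _ Y 2 h2 ((Linear.homCongr ℂ e1 (Iso.refl (TL hW hz Y))).trans
    ((TL_adj hW hz _ _).trans (Linear.homCongr ℂ e2 (Iso.refl _))))
    (g := fun n => f (m + 2 * (n : ℕ)))
    fun n => ?_).imp id fun e => e.trans (by simp)
  have e4 : G3.tw (A.en (3 - 2 * (2 : ℕ) + 2 * (n : ℕ))) (G3.tw (A.en (m + 1)) X) ≅
      G3.tw (A.en (3 - 2 * (2 : ℕ) + 2 * (n : ℕ))) (G3.tw (A.en 1) (G3.tw (A.en m) X)) :=
    ((twF _).mapIso e3).symm
  have i := Linear.homCongr ℂ e4 (Iso.refl Y)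
  obtain ⟨k1, k2⟩ := h.tw (a := m + 1) (b := 3 - 2 * (2 : ℕ) + 2 * (n : ℕ)) (c := m + 2 * (n : ℕ))
    (by push_cast; ring)
  exact ⟨Module.Finite.equiv i, i.finrank_eq.symm.trans k2⟩

end Vale.Agent.P287T.G3.Bs
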