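import Vale.Agent.P287T.G3.D

/-!
# Maps from the cone of `c t ^ k` on a constant matrix factorization
-/

set_option linter.unusedSectionVars false

open Matrix CategoryTheory CategoryTheory.Limits CategoryTheory.Pretriangulated Polynomial

namespace Vale.Agent.P287T.G3.Bs

open Vale.Agent.P287T.G3.E1a

section pure

variable {R : Type} [CommRing R] {ι κ : Type} {k : ℕ}

/-- the matrix of coefficients -/
def mCo (n : ℕ) (M : Matrix κ ι R[X]) : Matrix κ ι R := M.map fun p => p.coeff n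

theorem mCo_add (n : ℕ) (M N : Matrix κ ι R[X]) : mCo n (M + N) = mCo n M + mCo n N := by
  ext i j
  simp [mCo]

theorem mCo_neg (n : ℕ) (M : Matrix κ ι R[X]) : mCo n (-M) = -mCo n M := by
  ext i j
  simp [mCo]

theorem mCo_left [Fintype κ] (n : ℕ) (e : Matrix κ κ R) (M : Matrix κ ι R[X]) :
    mCo n (mC e * M) = e * mCo n M := by
  ext i j
  simp [mCo, mC, Matrix.mul_apply, coeff_C_mul]

theorem mCo_right [Fintype ι] (n : ℕ) (d : Matrix ι ι R) (M : Matrix κ ι R[X]) :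
    mCo n (M * mC d) = mCo n M * d := by
  ext i j
  simp [mCo, mC, Matrix.mul_apply, coeff_mul_C]

theorem mCo_pow {n : ℕ} (h : n < k) (c : R) (M : Matrix κ ι R[X]) :
    mCo n ((C c * X ^ k : R[X]) • M) = 0 := by
  ext i j
  simp [mCo, mul_assoc, coeff_C_mul, coeff_X_pow_mul', not_le.2 h]

/-- a polynomial matrix of degree `< k` -/
noncomputable def mG (γ : Fin k → Matrix κ ι R) : Matrix κ ι R[X] :=
  ∑ n : Fin k, (X : R[X]) ^ (n : ℕ) • mC (γ n)

theorem mCo_mG (γ : Fin k → Matrix κ ι R) (n : ℕ) :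
    mCo n (mG γ) = if h : n < k then γ ⟨n, h⟩ else 0 := by
  ext i j
  have h1 : mCo n (mG γ) i j = ∑ m : Fin k, if n = m then γ m i j else 0 := by
    simp only [mCo, mG, mC, Matrix.map_apply, Matrix.sum_apply, Matrix.smul_apply, smul_eq_mul,
      finsetSum_coeff, coeff_mul_C, coeff_X_pow, ite_mul, one_mul, zero_mul]
  rw [h1]
  split_ifs with h
  · rw [Finset.sum_eq_single ⟨n, h⟩, if_pos rfl]
    · exact fun m _ hm => if_neg fun e => hm (Fin.ext e.symm)
    · exact fun e => absurd (Finset.mem_univ _) e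
  · exact Finset.sum_eq_zero fun m _ => if_neg fun e => h (lt_of_eq_of_lt e m.2)

theorem exists_rem (k : ℕ) (M : Matrix κ ι R[X]) : ∃ u : Matrix κ ι R[X],
    M = mG (fun n : Fin k => mCo n M) + (X ^ k : R[X]) • u ∧ ∀ n, mCo n u = mCo (n + k) M := by
  have h : ∀ i j, ∃ u, (M - mG fun n : Fin k => mCo n M) i j = X ^ k * u := fun i j =>
    X_pow_dvd_iff.2 fun n hn => by
      have := congrFun (congrFun (mCo_mG (fun n : Fin k => mCo n M) n) i) j
      rw [dif_pos hn] at this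
      rw [Matrix.sub_apply, coeff_sub]
      exact sub_eq_zero.2 this.symm
  choose u hu using h
  refine ⟨u, ?_, fun n => ?_⟩
  · rw [← sub_eq_iff_eq_add']
    ext1 i j
    exact hu i j
  · ext i j
    have h1 := congrArg (fun p => p.coeff (n + k)) (hu i j)
    have h2 := congrFun (congrFun (mCo_mG (fun n : Fin k => mCo n M) (n + k)) i) j
    rw [dif_neg (by omega)] at h2
    simp only [Matrix.sub_apply, coeff_sub, coeff_X_pow_mul] at h1
    change (mG _ i j).coeff (n + k) = 0 at h2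
    rw [h2, sub_zero] at h1
    exact h1.symm

variable [Fintype ι] [DecidableEq ι] [Fintype κ] [DecidableEq κ]

/-- the differential of the cone -/
noncomputable def dQ (d : Matrix ι ι R) (c : R) (k : ℕ) : Matrix (ι ⊕ ι) (ι ⊕ ι) R[X] :=
  fromBlocks (mC d) ((C c * X ^ k : R[X]) • 1) 0 (-mC d)

theorem cols_dQ (d : Matrix ι ι R) (c : R) (f1 f2 : Matrix κ ι R[X]) :
    fromCols f1 f2 * dQ d c k =
      fromCols (f1 * mC d) ((C c * X ^ k : R[X]) • f1 + -(f2 * mC d)) := by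
  rw [dQ, fromCols_mul_fromBlocks]
  simp

theorem dQ_sq {d : Matrix ι ι R} {W : R} (h : d * d = W • 1) (c : R) :
    dQ d c k * dQ d c k = (C W : R[X]) • 1 := by
  have h1 : mC d * mC d = (C W : R[X]) • 1 := by rw [← mC_mul, h, mC_smul_one]
  rw [dQ, fromBlocks_multiply, ← fromBlocks_one, fromBlocks_smul]
  simp [h1]

theorem pi_closed {d d' : Matrix ι ι R} (h : d' = -d) (c : R) (n : ℕ) :
    mC d' * fromCols (0 : Matrix ι ι R[X]) ((X ^ n : R[X]) • 1) =
      fromCols (0 : Matrix ι ι R[X]) ((X ^ n : R[X]) • 1) * dQ d c k := by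
  have h1 : mC d' = -mC d := by
    ext1 i j
    simp [h, mC]
  rw [cols_dQ, mul_fromCols, h1]
  simp

theorem sum_pi (γ : Fin k → Matrix κ ι R) :
    ∑ n : Fin k, mC (γ n) * fromCols (0 : Matrix ι ι R[X]) ((X ^ (n : ℕ) : R[X]) • 1) =
      fromCols 0 (mG γ) := by
  simp only [mul_fromCols, Matrix.mul_zero, Matrix.mul_smul, Matrix.mul_one]
  ext1 i j
  rcases j with j | j
  · simp [Matrix.sum_apply]
  · simp [Matrix.sum_apply, mG]

theorem pure_inj {d : Matrix ι ι R} {e : Matrix κ κ R} {c : R} {γ : Fin k → Matrix κ ι R}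
    {h : Matrix κ (ι ⊕ ι) R[X]} (hh : fromCols 0 (mG γ) = mC e * h + h * dQ d c k) (n : Fin k) :
    γ n = e * mCo n h.toCols₂ + mCo n h.toCols₂ * -d := by
  rw [← fromCols_toCols h, cols_dQ, mul_fromCols] at hh
  have h1 : mG γ = mC e * h.toCols₂ + ((C c * X ^ k : R[X]) • h.toCols₁ + -(h.toCols₂ * mC d)) := by
    ext1 i j
    exact congrFun (congrFun hh i) (Sum.inr j)
  have h2 := congrArg (mCo n) h1
  rw [mCo_mG, dif_pos n.2, mCo_add, mCo_add, mCo_neg, mCo_left, mCo_right, mCo_pow n.2,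
    zero_add] at h2
  rw [Matrix.mul_neg]
  exact h2

theorem pure_surj {d : Matrix ι ι R} {e : Matrix κ κ R} {c c' : R} (hc : c' * c = 1)
    {f : Matrix κ (ι ⊕ ι) R[X]} (hf : mC e * f = f * dQ d c k) :
    (∀ n < k, e * mCo n f.toCols₂ = mCo n f.toCols₂ * -d) ∧
      ∃ u : Matrix κ ι R[X], (∀ n, mCo n u = mCo (n + k) f.toCols₂) ∧
        f - fromCols 0 (mG fun n : Fin k => mCo n f.toCols₂) =
          mC e * fromCols ((C c' : R[X]) • u) 0 + fromCols ((C c' : R[X]) • u) 0 * dQ d c k := by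
  rw [← fromCols_toCols f, cols_dQ, mul_fromCols] at hf
  have h1 : mC e * f.toCols₂ = (C c * X ^ k : R[X]) • f.toCols₁ + -(f.toCols₂ * mC d) := by
    ext1 i j
    exact congrFun (congrFun hf i) (Sum.inr j)
  have h2 : ∀ n < k, e * mCo n f.toCols₂ = mCo n f.toCols₂ * -d := fun n hn => by
    have := congrArg (mCo n) h1
    rwa [mCo_add, mCo_neg, mCo_left, mCo_right, mCo_pow hn, zero_add, ← Matrix.mul_neg] at this
  obtain ⟨u, hu, hu'⟩ := exists_rem k f.toCols₂
  refine ⟨h2, u, hu', ?_⟩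
  have h3 : mC e * mG (fun n : Fin k => mCo n f.toCols₂) =
      -(mG (fun n : Fin k => mCo n f.toCols₂) * mC d) := by
    rw [mG, Matrix.mul_sum, Matrix.sum_mul, ← Finset.sum_neg_distrib]
    refine Finset.sum_congr rfl fun n _ => ?_
    rw [Matrix.mul_smul, Matrix.smul_mul, ← mC_mul, ← mC_mul, h2 n n.2, ← smul_neg, Matrix.mul_neg]
    congr 1
    ext1 i j
    exact map_neg (C : R →+* R[X]) _
  have h4 : (X ^ k : R[X]) • (mC e * u + u * mC d) = (X ^ k : R[X]) • (C c : R[X]) • f.toCols₁ := by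
    rw [hu, Matrix.mul_add, Matrix.add_mul, h3, Matrix.mul_smul, Matrix.smul_mul] at h1
    rw [smul_add, smul_smul, mul_comm, ← sub_eq_zero]
    rw [← sub_eq_zero] at h1
    rw [← h1]
    abel
  have h5 : mC e * u + u * mC d = (C c : R[X]) • f.toCols₁ := by
    ext1 i j
    exact (monic_X_pow k).isRegular.left (congrFun (congrFun h4 i) j)
  have h6 : (C c' * C c : R[X]) = 1 := by rw [← C_mul, hc, C_1]
  rw [cols_dQ, mul_fromCols, Matrix.mul_smul, Matrix.smul_mul]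
  ext1 i j
  rcases j with j | j
  · have h7 : (C c' : R[X]) • (mC e * u) + (C c' : R[X]) • (u * mC d) = f.toCols₁ := by
      rw [← smul_add, h5, smul_smul, h6, one_smul]
    change f i (Sum.inl j) - 0 = _
    rw [sub_zero]
    exact (congrFun (congrFun h7 i) j).symm
  · have := congrFun (congrFun hu i) j
    simp only [Matrix.add_apply, Matrix.smul_apply, smul_eq_mul, toCols₂_apply] at this
    simp only [Matrix.sub_apply, Matrix.add_apply, fromCols_apply_inr, Matrix.smul_apply,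
      smul_eq_mul, Matrix.mul_zero, Matrix.zero_mul, neg_zero, Matrix.zero_apply]
    linear_combination this - X ^ k * u i j * h6

end pure

variable {A : GCtx} {W : A.S} {V : A.P.S}

/-- the constant matrix factorization -/
noncomputable def Cf (h : V = inP A (C W)) (E : MF A W) : MF A.P V where
  ι := E.ι
  p := E.p
  d := mC E.d
  deg i j := C_mem_P (E.deg i j)
  sq := by
    subst h
    exact ((mC_mul E.d E.d).symm.trans (congrArg mC E.sq)).trans (mC_smul_one W)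

theorem Cf_Z0 (h : V = inP A (C W)) {E F : MF A W} {f : Matrix F.ι E.ι A.S} (hf : f ∈ Z0 E F) :
    (mC f : Matrix F.ι E.ι A.S[X]) ∈ Z0 (Cf h E) (Cf h F) :=
  ⟨fun i j => C_mem_P (hf.1 i j),
    ((mC_mul F.d f).symm.trans (congrArg mC hf.2)).trans (mC_mul f E.d)⟩

theorem mC_add {R ι κ : Type} [CommRing R] (M N : Matrix ι κ R) : mC (M + N) = mC M + mC N := by
  ext1 i j
  exact map_add (C : R →+* R[X]) _ _

theorem Cf_B0 (h : V = inP A (C W)) {E F : MF A W} {f : Matrix F.ι E.ι A.S} (hf : f ∈ B0 E F) :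
    (mC f : Matrix F.ι E.ι A.S[X]) ∈ B0 (Cf h E) (Cf h F) := by
  obtain ⟨g, hg, rfl⟩ := hf
  refine ⟨(mC g : Matrix F.ι E.ι A.S[X]), fun i j => C_mem_P (hg i j), ?_⟩
  exact (mC_add _ _).trans (congrArg₂ (· + ·) (mC_mul F.d g) (mC_mul g E.d))

/-- the map on homotopy classes -/
noncomputable def CfA (h : V = inP A (C W)) (E F : MF A W) :
    HHom E F →+ HHom (Cf h E) (Cf h F) :=
  QuotientAddGroup.map _ _
    ({ toFun := fun f => ⟨(mC f.1 : Matrix F.ι E.ι A.S[X]), Cf_Z0 h f.2⟩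
       map_zero' := Subtype.ext (by ext1 i j; exact map_zero (C : A.S →+* A.S[X]))
       map_add' := fun f g => Subtype.ext (mC_add f.1 g.1) } : Z0 E F →+ Z0 (Cf h E) (Cf h F))
    (fun f hf => by
      rw [AddSubgroup.mem_addSubgroupOf] at hf
      exact Cf_B0 h hf)

theorem Cf_tw (h : V = inP A (C W)) (γ : A.Γ) (E : MF A W) :
    Nonempty (Cf h (tw γ E) ≅ tw (show A.P.Γ from γ) (Cf h E)) :=
  ⟨permIso (E := Cf h (tw γ E)) (F := tw (show A.P.Γ from γ) (Cf h E)) (Equiv.refl _)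
    (fun _ => rfl) fun i j => (map_zsmul (C : A.S →+* A.S[X]) _ (E.d i j)).symm⟩

theorem pow_mem_P (n : ℕ) (a : A.L) :
    ((X ^ n : A.S[X]) ∈ A.P.H (A.en (2 * n) +ᵥ a : A.L) a) := by
  refine mem_P.2 fun m => ?_
  rw [coeff_X_pow]
  split_ifs with h
  · subst h
    have : (-(m • A.en 2) +ᵥ (A.en (2 * m) +ᵥ a) : A.L) = a := by
      rw [vadd_vadd, show -(m • A.en 2) + A.en (2 * m) = 0 by
        simp only [GCtx.en]; module, zero_vadd]
    rw [this]
    exact A.one_mem a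
  · exact zero_mem _

theorem smul_one_mem {ι : Type} [DecidableEq ι] {s : A.S} {p q : ι → A.L}
    (h : ∀ i, s ∈ A.H (p i) (q i)) (i j : ι) : (s • (1 : Matrix ι ι A.S)) i j ∈ A.H (p j) (q i) := by
  rw [Matrix.smul_apply, Matrix.one_apply]
  split_ifs with e
  · subst e
    rw [smul_eq_mul, mul_one]
    exact h i
  · rw [smul_zero]
    exact zero_mem _

theorem en_vadd (m n : ℤ) (a : A.L) : A.en m +ᵥ (A.en n +ᵥ a) = A.en (m + n) +ᵥ a := by
  rw [vadd_vadd, A.en_add]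

/-- the cone of `c t ^ k` -/
noncomputable def Qk (h : V = inP A (C W)) (E : MF A W) (k : ℕ) {c : A.S} (hc : ∀ a, c ∈ A.H a a) :
    MF A.P V where
  ι := E.ι ⊕ E.ι
  p := Sum.elim E.p fun i => (A.en (2 * k - 3) +ᵥ E.p i : A.L)
  d := dQ E.d c k
  deg := by
    refine DegM.fromBlocks (A := A.P) (fun i j => C_mem_P (E.deg i j)) ?_ (DegM.zero _ _ _)
      (DegM.neg (DegM.shift (A := A.P) (δ := A.en (2 * k - 3)) fun i j => C_mem_P (E.deg i j)))
    refine smul_one_mem (A := A.P) (p := fun i => (A.en 3 +ᵥ (A.en (2 * k - 3) +ᵥ E.p i) : A.L))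
      fun i => A.P.mul_mem (C_mem_P (hc _)) ?_
    have := pow_mem_P k (E.p i)
    rwa [show (2 * k : ℤ) = 3 + (2 * k - 3) by ring, ← en_vadd] at this
  sq := by
    subst h
    exact dQ_sq E.sq c

theorem tw_odd (E : MF A W) (k n : ℕ) : (tw (A.en (3 - 2 * k + 2 * n)) E).d = -E.d := by
  rw [tw_d, A.chΓ_en, show (3 - 2 * k + 2 * n : ℤ) = 3 + ((n - k) + (n - k)) by ring, sg_add,
    sg_add, sg_mul_self, sg_five]
  simp

theorem lab_eq (k n : ℕ) (m : ℤ) (a : A.L) : -(n • A.en 2) +ᵥ (A.en m +ᵥ (A.en (2 * k - 3) +ᵥ a)) =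
    A.en m +ᵥ (-A.en (3 - 2 * k + 2 * n) +ᵥ a) := by
  rw [vadd_vadd, vadd_vadd, vadd_vadd]
  congr 1
  simp only [GCtx.en]
  module

theorem pi_mem (h : V = inP A (C W)) (E : MF A W) (k : ℕ) {c : A.S} (hc : ∀ a, c ∈ A.H a a)
    (n : ℕ) : (fromCols 0 ((X ^ n : A.S[X]) • 1) : Matrix E.ι (E.ι ⊕ E.ι) A.S[X]) ∈
      Z0 (Qk h E k hc) (Cf h (tw (A.en (3 - 2 * k + 2 * n)) E)) := by
  refine ⟨DegM.fromCols (A := A.P) (DegM.zero _ _ _) ?_, pi_closed (tw_odd E k n) c n⟩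
  refine smul_one_mem (A := A.P) (p := fun i => ((0 : A.Γ) +ᵥ (A.en (2 * k - 3) +ᵥ E.p i) : A.L))
    fun i => ?_
  have := pow_mem_P n (-A.en (3 - 2 * k + 2 * n) +ᵥ E.p i)
  rwa [← A.en_neg, en_vadd, show (2 * n + -(3 - 2 * k + 2 * n) : ℤ) = 0 + (2 * k - 3) by ring,
    ← en_vadd, A.en_zero, A.en_neg] at this

theorem mk_sum {E F : MF A W} {J : Type} (s : Finset J) (f : J → Matrix F.ι E.ι A.S)
    (hf : ∀ j, f j ∈ Z0 E F) :
    ∑ j ∈ s, mk (f j) (hf j) = mk (∑ j ∈ s, f j) (sum_mem fun j _ => hf j) := by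
  classical
  induction s using Finset.induction_on with
  | empty => exact ((mk_eq_zero _).2 (by rw [Finset.sum_empty]; exact zero_mem _)).symm
  | insert a s ha ih =>
    rw [Finset.sum_insert ha, ih, mk_add]
    exact mk_congr _ (Finset.sum_insert ha).symm

variable [GCtx.Aug A]

/-- the linear map on morphisms -/
noncomputable def CfH (h : V = inP A (C W)) (E F : MF A W) : (E ⟶ F) →ₗ[ℂ] (Cf h E ⟶ Cf h F) where
  toFun := CfA h E F
  map_add' := map_add (CfA h E F)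
  map_smul' z f := by
    induction f using hom_ind with
    | h f hf =>
      refine mk_congr (Cf_Z0 h (cst_smul_mem_Z0 z hf)) ?_
      ext1 i j
      exact C_mul

/-- the comparison map -/
noncomputable def Psi (h : V = inP A (C W)) (E F : MF A W) (k : ℕ) {c : A.S}
    (hc : ∀ a, c ∈ A.H a a) :
    (∀ n : Fin k, (tw (A.en (3 - 2 * k + 2 * (n : ℕ))) E ⟶ F)) →ₗ[ℂ] (Qk h E k hc ⟶ Cf h F) :=
  ∑ n : Fin k, Linear.leftComp ℂ (Cf h F) (mk _ (pi_mem h E k hc n)) ∘ₗ CfH h _ F ∘ₗ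
    LinearMap.proj n

theorem Psi_mk (h : V = inP A (C W)) (E F : MF A W) (k : ℕ) {c : A.S} (hc : ∀ a, c ∈ A.H a a)
    (γ : Fin k → Matrix F.ι E.ι A.S)
    (hγ : ∀ n : Fin k, γ n ∈ Z0 (tw (A.en (3 - 2 * k + 2 * (n : ℕ))) E) F) :
    ∃ hm, Psi h E F k hc (fun n => mk (γ n) (hγ n)) =
      mk (E := Qk h E k hc) (F := Cf h F)
        (fromCols 0 (mG γ) : Matrix F.ι (E.ι ⊕ E.ι) A.S[X]) hm := by
  have h1 := mk_sum (E := Qk h E k hc) (F := Cf h F) Finset.univ _
    fun n : Fin k => Z0_mul (Cf_Z0 h (hγ n)) (pi_mem h E k hc n)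
  refine m4_toP ⟨_, Eq.trans ?_ h1⟩ (sum_pi γ)
  rw [Psi, LinearMap.sum_apply]
  rfl

/-- **maps from the cone of `c t ^ k`** -/
theorem homQ (h : V = inP A (C W)) (E F : MF A W) (k : ℕ) {c c' : A.S} (hc : ∀ a, c ∈ A.H a a)
    (hc' : ∀ a, c' ∈ A.H a a) (e : c' * c = 1) : Function.Bijective (Psi h E F k hc) := by
  constructor
  · rw [injective_iff_map_eq_zero]
    intro g hg
    have : ∀ n, ∃ γ hγ, g n = mk γ hγ := fun n =>
      hom_ind (motive := fun x => ∃ γ hγ, x = mk γ hγ) (fun f hf => ⟨f, hf, rfl⟩) (g n)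
    choose γ hγ hh using this
    obtain ⟨hm, e1⟩ := Psi_mk h E F k hc γ hγ
    rw [funext hh, e1] at hg
    obtain ⟨u, hu, e2⟩ := (mk_eq_zero hm).1 hg
    funext n
    rw [hh]
    refine (mk_eq_zero _).2 ⟨mCo n (toCols₂ (show Matrix F.ι (E.ι ⊕ E.ι) A.S[X] from u)),
      fun i j => ?_, ?_⟩
    · have := mem_P.1 (hu i (Sum.inr j)) n
      exact lab_eq k n (-3) (E.p j) ▸ this
    · rw [tw_odd]
      exact pure_inj e2 n
  · intro f
    induction f using hom_ind with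
    | h f hf =>
      obtain ⟨h1, u, h2, h3⟩ := pure_surj (k := k) (d := E.d) (e := F.d) e
        (f := show Matrix F.ι (E.ι ⊕ E.ι) A.S[X] from f) hf.2
      have hγ : ∀ n : Fin k, mCo n (toCols₂ (show Matrix F.ι (E.ι ⊕ E.ι) A.S[X] from f)) ∈
          Z0 (tw (A.en (3 - 2 * k + 2 * (n : ℕ))) E) F := fun n => by
        refine ⟨fun i j => ?_, by rw [tw_odd]; exact h1 n n.2⟩
        have := mem_P.1 (hf.1 i (Sum.inr j)) n
        have e0 := lab_eq k n 0 (E.p j)
        rw [A.en_zero] at e0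
        exact e0 ▸ this
      obtain ⟨hm, e1⟩ := Psi_mk h E F k hc _ hγ
      refine ⟨_, e1.trans ((mk_eq_mk _ _).2 ⟨(fromCols ((C c' : A.S[X]) • u) 0 :
        Matrix F.ι (E.ι ⊕ E.ι) A.S[X]), ?_, h3⟩).symm⟩
      refine DegM.fromCols (A := A.P) (fun i j => ?_) (DegM.zero _ _ _)
      refine A.P.mul_mem (C_mem_P (hc' _)) (mem_P.2 fun n => ?_)
      have e2 : (u i j).coeff n = _ := congrFun (congrFun (h2 n) i) j
      have := mem_P.1 (hf.1 i (Sum.inr j)) (n + k)
      have e0 : -((n + k) • A.en 2) +ᵥ ((0 : A.Γ) +ᵥ (A.en (2 * k - 3) +ᵥ E.p j)) =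
          -(n • A.en 2) +ᵥ (A.en (-3) +ᵥ E.p j) := by
        rw [vadd_vadd, vadd_vadd, vadd_vadd]
        congr 1
        simp only [GCtx.en]
        module
      rw [e2]
      exact e0 ▸ this

end Vale.Agent.P287T.G3.Bs
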