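import Vale.Agent.P287T.Bs.St
import Vale.Agent.P287T.Top.Hg
import Vale.Agent.P287T.Sw.Sys

/-!
# The base point: a stable object of isotropic class and discriminant `14` on the Fermat cubic
-/

open CategoryTheory CategoryTheory.Pretriangulated CategoryTheory.Limits Module

namespace Vale.Agent.P287T.Bs

open Vale.Agent.P294 Vale.Agent.P287T.Op Vale.Agent.P287T.Sw Vale.Agent.P287T.Cy
  Vale.Agent.P287T.Top

section

universe v u

variable {C : Type u} [Category.{v} C] [Preadditive C] [Linear ℂ C] [HasZeroObject C]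
  [HasShift C ℤ] [∀ n : ℤ, (shiftFunctor C n).Additive] [Pretriangulated C] [IsTriangulated C]
  {σ : Slic C} {Z : C → ℂ} {r : C → ℕ} {c α β m1 m2 : ℝ}

/-- the Farey sum of two semistable objects with negative Euler pairing -/
theorem Bas.exists_ext (B : Bas Z α β m1 m2) (h : Stab σ Z r c) (K : CY2 C) {X Y : C}
    (hX : σ.P α X) (hY : σ.P β Y) (zX : Z X = m1 * ray α) (zY : Z Y = m2 * ray β)
    (hc : chi Y X < 0) : ∃ (E : C) (φ m : ℝ), A2bTr X E Y ∧ α < φ ∧ φ < β ∧ σ.P φ E ∧ 0 < m ∧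
      Z E = m * ray φ := by
  have l0 := B.lt
  have l1 := B.lt1
  have h1 : hd Y X 1 ≠ 0 := fun h0 => by
    rw [chi_window (X := Y) (Y := X) fun k hk => ?_, h0] at hc
    · omega
    rcases hk with hk | hk
    · have : (k : ℝ) < 0 := by exact_mod_cast hk
      exact fr_of_zero ((σ.ts β).hom hY.1 (((σ.shiftP_int α k X).2 hX).2 β (by linarith)))
    · have : ((2 - k : ℤ) : ℝ) ≤ -1 := by exact_mod_cast (by omega : 2 - k ≤ -1)
      rw [K.serre]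
      exact fr_of_zero ((σ.ts α).hom hX.1 (((σ.shiftP_int β _ Y).2 hY).2 α (by linarith)))
  obtain ⟨d, hd⟩ := K.exists_ne h1
  obtain ⟨E, f, g, hT⟩ := distinguished_cocone_triangle₂ d
  obtain ⟨φ, k1, k2, hE⟩ := B.farey h hT hX hY zX zY hd
  obtain ⟨m, hm, e⟩ := h.ph φ E hE
  refine ⟨E, φ, m, ⟨_, _, _, hT⟩, k1, k2, hE, lt_of_le_of_ne
    (le_trans (mul_nonneg h.cpos.le (Nat.cast_nonneg _)) hm) fun h0 => ?_, e⟩
  have := congrArg (lam α) (addC h.add ⟨_, _, _, hT⟩)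
  rw [e, ← h0, zX, zY, lam_add, lam_mul_ray, lam_mul_ray, lam_mul_ray] at this
  have h2 := mul_pos B.p2 (sin_pos l0 l1)
  simp only [zero_mul, sub_self, mul_zero, Real.sin_zero, zero_add] at this
  linarith

end

variable {W : S6}

theorem chi_HD (c : Rr.Cu W) {X Y : G3.HM W} {f : ℤ → ℕ} (h : G3.Bs.HD X Y f)
    (h0 : ∀ m, m < -6 ∨ 0 < m → f m = 0) : chi X Y = (f 0 : ℤ) - f (-3) + f (-6) := by
  have k : ∀ k : ℤ, hd X Y k = f (3 * -k) := fun k => by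
    have := (cy2 c).hd_shL X Y (-k) 0
    rw [zero_sub, neg_neg, hd_zero] at this
    exact this.symm.trans (h (3 * -k)).2
  rw [chi_window fun j hj => (k j).trans (h0 _ (by omega)), k, k, k]
  rfl

theorem ray_om : ray (1 / 3) = 1 + om := by
  rw [ray_eq, show Real.pi * (1 / 3) = Real.pi / 3 by ring, Real.cos_pi_div_three,
    Real.sin_pi_div_three]
  apply Complex.ext <;> simp [om]
  norm_num

theorem cube_om : (1 - om) ^ 3 = -(1 + ray (1 / 3)) ^ 3 := by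
  rw [ray_om]
  linear_combination 9 * Sw.om_sq

theorem exists_E0 (c : Rr.Cu (G3.fer 6)) (hL : ∀ E : G3.HM (G3.fer 6), ∃ p q : ℤ,
    G3.Zf E = (1 + ray (1 / 3)) ^ 3 * (p + q * ray (1 / 3))) :
    ∃ (E : G3.HM (G3.fer 6)) (φ : ℝ), (sgW c).P φ E ∧
      G3.Zf E = (1 + ray (1 / 3)) ^ 3 * (2 + ray (1 / 3)) ∧ chi E E = 0 := by
  obtain ⟨K, hK, h10, h12, h02⟩ := G3.Bs.exists_planes hL (w := om)
    (by linear_combination Sw.om_sq)
  have S := stabW c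
  have Y := cy2 c
  obtain ⟨m, hm, e⟩ := S.ph _ _ (hK 0).1
  rw [(hK 0).2.1] at e
  have m0 : 0 < m := lt_of_le_of_ne (le_trans (mul_nonneg S.cpos.le (Nat.cast_nonneg _)) hm)
    fun h0 => by
      rw [← h0, Complex.ofReal_zero, zero_mul, neg_eq_zero] at e
      exact pow_ne_zero _ G3.e3_ray_ne e
  set B := G3.tw ((G3.mvCtx 6).en 1) (K 1) with hB
  have pB : (sgW c).P (-1 / 2 + 1 / 3) B := by
    have := (G3.sig _ c.hom c.sm).twP ((G3.mvCtx 6).en 1) _ _ (hK 1).1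
    rwa [G3.GCtx.chΓ_en, Int.cast_one] at this
  have zB : G3.Zf B = ray (1 / 3) * (1 + ray (1 / 3)) ^ 3 := by
    rw [hB, G3.Zf_tw, G3.GCtx.chΓ_en, Int.cast_one, (hK 1).2.1]
  have d0 : ∀ i, chi (K i) (K i) = 2 := fun i =>
    (chi_HD c (hK i).2.2 fun m hm => by simp only [G3.Bs.dl]; split_ifs <;> omega).trans rfl
  have dB : chi B B = 2 := (chi_HD c ((hK 1).2.2.tw2 _) fun m hm => by
    simp only [G3.Bs.dl]; split_ifs <;> omega).trans rfl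
  have d1 : chi B (K 0) = -1 := (chi_HD c (h10.tw1 1) fun m hm => by
    simp only [G3.Bs.dl]; split_ifs <;> omega).trans rfl
  have d2 : chi B (K 2) = -1 := (chi_HD c (h12.tw1 1) fun m hm => by
    simp only [G3.Bs.dl]; split_ifs <;> omega).trans rfl
  have d3 : chi (K 0) (K 2) = -1 := (chi_HD c h02 fun m hm => by
    simp only [G3.Bs.dl]; split_ifs <;> omega).trans rfl
  have B1 : Bas (fun E : G3.HM (G3.fer 6) => -G3.Zf E) (-1 / 2) (-1 / 2 + 1 / 3) m m :=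
    ⟨by norm_num, by norm_num, m0, m0, fun X => by
      obtain ⟨p, q, h⟩ := hL X
      refine ⟨p, q, ?_⟩
      rw [h, ray_add]
      linear_combination (p + q * ray (1 / 3)) * e⟩
  obtain ⟨T, φ, m', t1, k1, k2, pT, m1, zT⟩ := B1.exists_ext S Y (hK 0).1 pB
    (by rw [(hK 0).2.1, e]) (by rw [zB, ray_add]; linear_combination ray (1 / 3) * e)
    (by rw [d1]; norm_num)
  have z1 : G3.Zf T = _ := addC G3.Zf_add t1
  rw [(hK 0).2.1, zB] at z1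
  have B2 : Bas (fun E : G3.HM (G3.fer 6) => -G3.Zf E) (-1 / 2) φ m m' :=
    ⟨k1, by linarith, m0, m1, fun X => by
      obtain ⟨p, q, h⟩ := hL X
      refine ⟨p - q, q, ?_⟩
      rw [h, ← zT, z1, ← e]
      push_cast
      ring⟩
  have c1 : chi T (K 2) = -2 := by rw [addZ (Y.addL (K 2)) t1, d3, d2]; rfl
  have c2 : chi T T = 2 := by
    rw [addZ (Y.addL T) t1, addZ (Y.addR _) t1, addZ (Y.addR _) t1, d0, Y.chi_symm (K 0), d1, dB]
    rfl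
  obtain ⟨E, ψ, -, t2, -, -, pE, -⟩ := B2.exists_ext S Y (hK 2).1 pT (by rw [(hK 2).2.1, e]) zT
    (by rw [c1]; norm_num)
  refine ⟨E, ψ, pE, ?_, ?_⟩
  · rw [addC G3.Zf_add t2, z1, (hK 2).2.1]
    ring
  · rw [addZ (Y.addL E) t2, addZ (Y.addR _) t2, addZ (Y.addR _) t2, d0, Y.chi_symm (K 2), c1, c2]
    rfl

theorem int_sat {k r1 r2 j y1 y2 y3 N : ℤ} (hk : k ≠ 0) (h1 : k * y1 = 2 * r1 - r2 - 2 * j)
    (h2 : k * y2 = -r1 + 2 * r2 - j) (h3 : k * y3 = -2 * r1 - r2)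
    (h4 : k * N = r1 * y1 + r2 * y2 + j * y3) : k ∣ r1 ∧ k ∣ r2 ∧ k ∣ j := by
  have e : (y1 - 2 * y2 - 5 * y3) ^ 2 = 14 * (N + 2 * y2 * y3 + 2 * y3 ^ 2) :=
    mul_left_cancel₀ hk (by
      linear_combination (y1 - 2 * y2 - 5 * y3) * h1 + (-2 * y1 + 4 * y2 - 4 * y3) * h2 +
        (-5 * y1 - 4 * y2 - 3 * y3) * h3 - 14 * h4)
  have p2 : (2 : ℤ) ∣ y1 - 2 * y2 - 5 * y3 :=
    Int.prime_two.dvd_of_dvd_pow (n := 2) ⟨7 * (N + 2 * y2 * y3 + 2 * y3 ^ 2), by rw [e]; ring⟩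
  have p7 : (7 : ℤ) ∣ y1 - 2 * y2 - 5 * y3 :=
    (Int.prime_iff_natAbs_prime.2 (by norm_num)).dvd_of_dvd_pow (n := 2)
      ⟨2 * (N + 2 * y2 * y3 + 2 * y3 ^ 2), by rw [e]; ring⟩
  obtain ⟨t, ht⟩ : ∃ t, y1 = 2 * y2 + 5 * y3 + 14 * t := ⟨(y1 - 2 * y2 - 5 * y3) / 14, by omega⟩
  subst ht
  refine ⟨⟨t, ?_⟩, ⟨-(2 * t + y3), ?_⟩, ⟨-(5 * t + y2 + 2 * y3), ?_⟩⟩ <;> linarith

theorem sat_abs {L : Type} [AddCommGroup L] (b : L →+ L →+ ℤ) (hs : ∀ x y, b x y = b y x)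
    {x1 x2 v w : L} (a1 : b x1 x1 = 2) (a2 : b x1 x2 = -1) (a3 : b x2 x2 = 2) (a4 : b x1 v = -2)
    (a5 : b x2 v = -1) (a6 : b v v = 0) {k r1 r2 j : ℤ} (hk : k ≠ 0)
    (e : k • w = r1 • x1 + r2 • x2 + j • v) : k ∣ r1 ∧ k ∣ r2 ∧ k ∣ j := by
  have key : ∀ x, k * b x w = r1 * b x x1 + r2 * b x x2 + j * b x v :=
    fun x => by simpa only [map_add, map_zsmul, smul_eq_mul] using congrArg (b x) e
  have k1 := key x1
  have k2 := key x2
  have k3 := key v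
  have k4 := key w
  rw [a1, a2, a4] at k1
  rw [hs x2 x1, a2, a3, a5] at k2
  rw [hs v x1, hs v x2, a4, a5, a6] at k3
  rw [hs w x1, hs w x2, hs w v] at k4
  exact int_sat hk (by linarith) (by linarith) (by linarith) k4

theorem node_of (M : Cl.IsMuk W) {v : Cls W} (hv : v ∈ LT W) (h0 : Top.mk v v = 0)
    (h1 : v.1 = eis ![-3, -1, 0]) : Node v := by
  have e1 : v.1 = (-2 : ℤ) + (-1 : ℤ) * e6 := h1.trans ((eis_eq _).trans (by simp))
  refine ⟨hv, h0, ⟨-2, -1, ⟨_, h1, rfl, rfl⟩, isCoprime_one_right.neg_right⟩, ?_, ?_⟩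
  · rintro w hw k hk ⟨r1, r2, j, e⟩
    obtain ⟨b, hb, hs, -⟩ := M.bz
    have val : ∀ (x y : LT W) (n : ℤ), Top.mk x.1 y.1 = n → b x y = n := fun x y n h =>
      Int.cast_injective (α := ℂ) ((hb x y).trans h)
    obtain ⟨⟨s1, rfl⟩, ⟨s2, rfl⟩, ⟨s3, rfl⟩⟩ := sat_abs b hs (x1 := ⟨_, M.l1⟩) (x2 := ⟨_, M.l2⟩)
      (v := ⟨v, hv⟩) (w := ⟨w, hw⟩) (val _ _ _ (Sw.mk_l1 (W := W) l1_eq).1)
      (val _ _ _ (Sw.mk_l1 (W := W) l2_eq).1) (val _ _ _ (Sw.mk_l2 (W := W) l2_eq).1)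
      (val _ _ _ (Sw.mk_l1 e1).1) (val _ _ _ (Sw.mk_l2 e1).1)
      (val _ _ _ (h0.trans Int.cast_zero.symm)) hk (r1 := r1) (r2 := r2) (j := j) (Subtype.ext e)
    refine ⟨s1, s2, s3, ?_⟩
    have hk' : (k : ℂ) ≠ 0 := by exact_mod_cast hk
    refine smul_right_injective (Cls W) hk' ?_
    simp only [Int.cast_smul_eq_zsmul, e, smul_add, smul_smul]
  · rw [h1, eis, Complex.normSq_apply]
    simp [om]
    nlinarith [s3_sq]

/-- **BASE** -/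
theorem stBase (hl : Cl.StLat) (hm : Cl.StMem) (hr : Rr.HRR) : StBase := by
  have c : Rr.Cu (G3.fer 6) := ⟨G3.fer_hom 6, G3.fer_smooth 6⟩
  have hz : ∀ E, G3.Zf E = (1 - om) ^ 3 * (Cl.clE c E).1 := fun E => by
    rw [Zf_eq]
    exact (mul_div_cancel₀ _ Cl.c0_ne).symm
  obtain ⟨E, φ, h1, h2, h3⟩ := exists_E0 c fun E => by
    refine ⟨-q1 (Cl.clE c E).1, -q2 (Cl.clE c E).1, ?_⟩
    rw [hz, cube_om]
    conv_lhs => rw [LT_eq (v := Cl.clE c E) (hm c E.isMF).1, e6_eq, ← ray_om]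
    push_cast
    ring
  refine ⟨_, c.per, Cl.clE c E, node_of (hl c) (hm c E.isMF).1 ?_ ?_, c, φ, E, h1, rfl⟩
  · have := Cl.chi_eq hr c E.isMF E.isMF
    rw [← Sw.chi_eq, h3, Int.cast_zero] at this
    exact neg_eq_zero.1 this.symm
  · refine mul_left_cancel₀ Cl.c0_ne ?_
    rw [← hz, h2, cube_om, ray_om, eis]
    simp
    ring

end Vale.Agent.P287T.Bs
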