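import Vale.Agent.P287T.Bs.Hk
import Vale.Agent.P287T.Bs.Far

/-!
# The matrix factorizations of the planes in the Fermat cubic fourfold are stable
-/

open Matrix CategoryTheory CategoryTheory.Limits CategoryTheory.Pretriangulated Polynomial Module

open Vale.Agent.P294 Vale.Agent.P287T.Op

namespace Vale.Agent.P287T.G3.Bs

section hd

variable {A B : GCtx} [GCtx.Aug A] [GCtx.Aug B] {W : A.S}

omit [GCtx.Aug A] in
theorem Z0_of_tw (γ : A.Γ) {E F : MF A W} {f : Matrix F.ι E.ι A.S}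
    (hf : f ∈ Z0 (tw γ E) (tw γ F)) : f ∈ Z0 E F := by
  refine ⟨(isDeg_tw γ).1 hf.1, ?_⟩
  have h : (sg (A.chΓ γ) • F.d) * f = f * (sg (A.chΓ γ) • E.d) := hf.2
  have h2 := congrArg (fun M => sg (A.chΓ γ) • M) h
  simpa only [Matrix.smul_mul, Matrix.mul_smul, smul_smul, sg_mul_self, one_smul] using h2

/-- twisting is a linear bijection on morphisms -/
noncomputable def twEquiv (γ : A.Γ) (E F : MF A W) : (E ⟶ F) ≃ₗ[ℂ] (tw γ E ⟶ tw γ F) :=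
  LinearEquiv.ofBijective ((twF γ).mapLinearMap ℂ) ⟨(injective_iff_map_eq_zero _).2
    (T3c_faithful γ), fun f => by
      induction f using hom_ind with
      | h f hf => exact ⟨mk f (Z0_of_tw γ hf), rfl⟩⟩

theorem HD.of {V : B.S} {X Y : MF A W} {X' Y' : MF B V} {f : ℤ → ℕ} (h : HD X Y f)
    (e : ∀ m, Nonempty ((G3.tw (A.en m) X ⟶ Y) ≃ₗ[ℂ] (G3.tw (B.en m) X' ⟶ Y'))) :
    HD X' Y' f := fun m => by
  obtain ⟨i⟩ := e m
  have := (h m).1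
  exact ⟨Module.Finite.equiv i, i.finrank_eq.symm.trans (h m).2⟩

theorem HD.tw2 {X Y : MF A W} {f : ℤ → ℕ} (h : HD X Y f) (γ : A.Γ) :
    HD (G3.tw γ X) (G3.tw γ Y) f :=
  h.of fun _ => ⟨(twEquiv γ _ _).trans (Linear.homCongr ℂ (T3c_comm X _ _) (Iso.refl _))⟩

theorem HD.tw1 {X Y : MF A W} {f : ℤ → ℕ} (h : HD X Y f) (a : ℤ) :
    HD (G3.tw (A.en a) X) Y fun m => f (a + m) := fun _ => h.tw rfl

theorem exists_pre (I : CIso A B) (hev : ∀ s, GCtx.Aug.ev (I.φ s) = GCtx.Aug.ev s) [Nonempty A.L]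
    {V : B.S} (h : I.φ W = V) : ∃ Φ : MF B V → MF A W, (∀ Y, Nonempty (I.ob h (Φ Y) ≅ Y)) ∧
      (∀ Y, Zf (Φ Y) = Zf Y) ∧ ∀ X Y f, HD X Y f → HD (Φ X) (Φ Y) f := by
  subst h
  refine ⟨I.n2aPre, fun Y => ⟨(I.obIso _).symm ≪≫ I.n2aPreIso Y⟩,
    fun Y => (I.Zf_obj _).symm.trans (Zf_add.isoC (I.n2aPreIso Y)), fun X Y f hf => hf.of fun m => ?_⟩
  have := I.chom_equiv W
  have : (I.chom W).functor.Linear ℂ := ⟨fun {E F} f z => by
    induction f using hom_ind with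
    | h f hf =>
      refine mk_congr ((I.chom W).mat_Z0 (cst_smul_mem_Z0 z hf)) ?_
      ext i j
      exact (map_mul I.φ _ _).trans (congrArg (· * _) (I.cst hev z))⟩
  obtain ⟨e⟩ := (I.chom W).tw_iso m (I.n2aPre X)
  have e1 : (I.chom W).functor.obj (tw (A.en m) (I.n2aPre X)) ≅ tw (B.en m) X :=
    e ≪≫ (twF (B.en m)).mapIso (I.n2aPreIso X)
  have e2 : (I.chom W).functor.obj (I.n2aPre Y) ≅ Y := I.n2aPreIso Y
  exact ⟨((LinearEquiv.ofBijective ((I.chom W).functor.mapLinearMap ℂ)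
    ⟨(I.chom W).functor.map_injective, (I.chom W).functor.map_surjective⟩).trans
    (Linear.homCongr ℂ e1 e2)).symm⟩

end hd

/-- the charges on level `n` are multiples of `(1 + ζ) ^ k` -/
def LatK (n k : ℕ) : Prop := ∀ X : MF (co n) (Fer n), ∃ p q : ℤ,
  Zf X = (1 + ray (1 / 3)) ^ k * (p + q * ray (1 / 3))

/-- the product with a line in the Fermat tower -/
noncomputable def TF (n : ℕ) {z : ℂ} (hz : z ^ 3 = 1) (E : MF (co n) (Fer n)) :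
    MF (co (n + 2)) (Fer (n + 2)) := TL (Fer_isPot n) hz E

variable {n k : ℕ} {z w : ℂ}

theorem Zf_TF (hz : z ^ 3 = 1) (E : MF (co n) (Fer n)) :
    Zf (TF n hz E) = (1 + ray (1 / 3)) * Zf E := Zf_TL (Fer_isPot n) hz E

theorem LatK.down (h : LatK (n + 2) (k + 1)) : LatK n k := fun X => by
  obtain ⟨p, q, e⟩ := h (TF n (one_pow 3) X)
  refine ⟨p, q, mul_left_cancel₀ e3_ray_ne ?_⟩
  rw [← Zf_TF (one_pow 3), e]
  ring

theorem two_sub : 2 - ray (1 / 3) = (√3 : ℝ) * ray (-1 / 6) := by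
  have h3 : (√3 : ℝ) * √3 = 3 := Real.mul_self_sqrt (by norm_num)
  rw [ray_eq, ray_eq, show Real.pi * (1 / 3) = Real.pi / 3 by ring, Real.cos_pi_div_three,
    Real.sin_pi_div_three, show Real.pi * (-1 / 6) = -(Real.pi / 6) by ring, Real.cos_neg,
    Real.sin_neg, Real.cos_pi_div_six, Real.sin_pi_div_six]
  apply Complex.ext <;> simp <;> nlinarith

theorem TF_P (hL : LatK (n + 2) (k + 1)) (hz : z ^ 3 = 1) {E : MF (co n) (Fer n)} {φ : ℝ}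
    (hE : (gdFer n).σ.P φ E) (hZ : Zf E = (1 + ray (1 / 3)) ^ k) :
    (gdFer (n + 2)).σ.P (φ - 1 / 6) (TF n hz E) ∧ Zf (TF n hz E) = (1 + ray (1 / 3)) ^ (k + 1) := by
  have hZ' : Zf (TF n hz E) = (1 + ray (1 / 3)) ^ (k + 1) := by rw [Zf_TF, hZ]; ring
  refine ⟨?_, hZ'⟩
  have hs : ∀ v, (gdFer (n + 1)).σ.P φ
      (tgr v (IndO (A := co (n + 1)) (W := Fer (n + 1)) (TF n hz E))) := fun v => by
    obtain ⟨e⟩ := TL_side (Fer_isPot n) hz E v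
    exact L2d_P_iso e.symm (R_P_Fer g2_hl rfl (e3_P_mem (Fer_isPot n)) (evW_zero rfl).symm rfl E hE)
  obtain ⟨m, hm, e⟩ := (gdFer n).stab.ph φ E hE
  have m0 : 0 ≤ m := le_trans (mul_nonneg (gdFer n).stab.cpos.le (Nat.cast_nonneg _)) hm
  have m1 : m ≠ 0 := fun h0 => by
    rw [h0, hZ, Complex.ofReal_zero, zero_mul] at e
    exact mul_ne_zero (gdFer n).κ_ne (pow_ne_zero _ e3_ray_ne) e
  have key : (gdFer (n + 2)).κ * (1 + ray (1 / 3)) ^ (k + 1) =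
      ((3 * √3 * m : ℝ) : ℂ) * ray (φ - 1 / 6) := by
    have e1 : ray (φ - 1 / 6) = ray φ * ray (-1 / 6) := by rw [← ray_add]; congr 1; ring
    rw [hZ, gdFer_κ] at e
    rw [gdFer_κ, e1, pow_add, pow_succ (1 + ray (1 / 3)), three_kT] at *
    push_cast
    linear_combination (2 - ray (1 / 3)) ^ 2 * (1 + ray (1 / 3)) * e + 3 * m * ray φ * two_sub -
      m * ray φ * (2 - ray (1 / 3)) * ray_third
  refine P287T.Bs.unit_ss (gdFer (n + 2)).stab (m := 3 * √3 * m) (s := φ - 2 / 5) (t := φ)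
    (by have := lt_of_le_of_ne m0 m1.symm; positivity) (fun X => ?_) ?_ (fun t ht => ?_)
    (by linarith) (by linarith) (by rw [hZ', key])
  · obtain ⟨p, q, h⟩ := hL X
    exact ⟨p, q, by rw [h, ← key, mul_assoc]⟩
  · exact (gdFer_U (n + 1) _ _).2 ((gdT_win _).U_of (t := φ) (by linarith) fun v => (hs v).1)
  · exact (gdFer_V (n + 1) _ _).2 ((gdT_win _).V_of fun v => (hs v).2 t ht)

/-- the point -/
noncomputable def K0 : MF (co 0) (Fer 0) := g2_S0 0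

theorem K0_P : (gdFer 0).σ.P 0 K0 :=
  ⟨⟨g2_S0 0, ⟨Iso.refl _⟩, rfl, fun _ => by simp [F0ph, g2_S0, GCtx.pt]⟩,
    fun t ht => ⟨g2_S0 0, ⟨Iso.refl _⟩, rfl, fun _ => by simpa [F0ph, g2_S0, GCtx.pt] using ht⟩⟩

theorem K0_Z : Zf K0 = (1 + ray (1 / 3)) ^ 0 := by
  change ∑ _i : Unit, ray (-((0 : ℤ) : ℝ) / 3) = _
  simp [ray_zero]

/-- the delta function -/
def dl (m : ℤ) : ℕ := if m = 0 then 1 else 0

theorem K0_HD : HD K0 K0 dl := fun m => by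
  have hd : (tw (GCtx.pt.en m) (g2_S0 0)).d = 0 :=
    smul_zero (A := Matrix Unit Unit ℂ) (sg (GCtx.pt.chΓ (GCtx.pt.en m)))
  let e := LinearEquiv.ofBijective (g2_lin hd 0) (g2_lin_bij hd 0)
  refine ⟨Module.Finite.equiv e, e.finrank_eq.symm.trans ?_⟩
  rw [Module.finrank_fintype_fun_eq_card]
  have h : ∀ i : (tw (GCtx.pt.en m) (g2_S0 0)).ι,
      GCtx.pt.ch ((tw (GCtx.pt.en m) (g2_S0 0)).p i) = 0 ↔ m = 0 := fun i => by
    change -(m • (1 : ℤ)) + 0 = 0 ↔ _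
    simp
  rw [dl]
  split_ifs with h0
  · exact (Fintype.card_congr (Equiv.subtypeUnivEquiv fun i => (h i).2 h0)).trans
      Fintype.card_unit
  · exact Fintype.card_eq_zero_iff.2 ⟨fun i => h0 ((h i.1).1 i.2)⟩

/-- the matrix factorization of a plane -/
noncomputable def KP {a b c : ℂ} (ha : a ^ 3 = 1) (hb : b ^ 3 = 1) (hc : c ^ 3 = 1) :
    MF (co 6) (Fer 6) := TF 4 hc (TF 2 hb (TF 0 ha K0))

theorem KP_P (hL : LatK 6 3) {a b c : ℂ} (ha : a ^ 3 = 1) (hb : b ^ 3 = 1) (hc : c ^ 3 = 1) :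
    (gdFer 6).σ.P (-1 / 2) (KP ha hb hc) ∧ Zf (KP ha hb hc) = (1 + ray (1 / 3)) ^ 3 := by
  have h1 := TF_P (n := 0) (k := 0) (LatK.down (LatK.down hL)) ha K0_P K0_Z
  have h2 := TF_P (n := 2) (k := 1) (LatK.down hL) hb h1.1 h1.2
  have h3 := TF_P (n := 4) (k := 2) hL hc h2.1 h2.2
  rwa [show (0 : ℝ) - 1 / 6 - 1 / 6 - 1 / 6 = -1 / 2 by norm_num] at h3

theorem HD.neF (hz : z ^ 3 = 1) (hw : w ^ 3 = 1) (hne : w ≠ z) {X Y : MF (co n) (Fer n)}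
    {f : ℤ → ℕ} (h : HD X Y f) : HD (TF n hw X) (TF n hz Y) fun m => f (m + 1) :=
  h.ne (Fer_isPot n) hz hw hne

theorem HD.eqF (hz : z ^ 3 = 1) {X Y : MF (co n) (Fer n)} {f : ℤ → ℕ} (h : HD X Y f) :
    HD (TF n hz X) (TF n hz Y) fun m => f m + f (m + 2) := h.eq (Fer_isPot n) hz

theorem HD.congr {A : GCtx} [GCtx.Aug A] {W : A.S} {X Y : MF A W} {f g : ℤ → ℕ} (h : HD X Y f)
    (e : ∀ m, f m = g m) : HD X Y g := fun m => ⟨(h m).1, (h m).2.trans (e m)⟩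

/-- three stable objects on the Fermat cubic fourfold with known morphisms -/
theorem exists_planes (hL : ∀ E : HM (fer 6), ∃ p q : ℤ,
    Zf E = (1 + ray (1 / 3)) ^ 3 * (p + q * ray (1 / 3))) {w : ℂ} (hw : w ^ 2 + w + 1 = 0) :
    ∃ K : Fin 3 → HM (fer 6), (∀ i, (sig (fer 6) (fer_hom 6) (fer_smooth 6)).σ.P (-1 / 2) (K i) ∧
      Zf (K i) = (1 + ray (1 / 3)) ^ 3 ∧
      HD (K i) (K i) fun m => dl m + 3 * dl (m + 2) + 3 * dl (m + 4) + dl (m + 6)) ∧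
      (HD (K 1) (K 0) fun m => dl (m + 2) + dl (m + 4)) ∧
      (HD (K 1) (K 2) fun m => dl (m + 2) + dl (m + 4)) ∧ HD (K 0) (K 2) fun m => dl (m + 3) := by
  have : Nonempty (mvCtx 6).L := ⟨(0 : ℤ)⟩
  obtain ⟨Φ, h1, h2, h3⟩ := exists_pre (mvIso 6) (mvIso_ev 6) (mvIso_fer 6)
  have hK : LatK 6 3 := fun X => by rw [← h2]; exact hL _
  have a0 : (1 : ℂ) ^ 3 = 1 := one_pow 3
  have a1 : w ^ 3 = 1 := by linear_combination (w - 1) * hw
  have a2 : (w ^ 2) ^ 3 = 1 := by rw [← pow_mul, mul_comm, pow_mul, a1, one_pow]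
  have n01 : (1 : ℂ) ≠ w := fun e => by rw [← e] at hw; norm_num at hw
  have n02 : (1 : ℂ) ≠ w ^ 2 := fun e => n01 (by linear_combination (-w) * e - a1)
  have n12 : w ≠ w ^ 2 := fun e => n02 (by linear_combination (-w) * e - a1)
  have k : ∀ {a b c : ℂ} (ha : a ^ 3 = 1) (hb : b ^ 3 = 1) (hc : c ^ 3 = 1),
      (sig (fer 6) (fer_hom 6) (fer_smooth 6)).σ.P (-1 / 2) (Φ (KP ha hb hc)) ∧
      Zf (Φ (KP ha hb hc)) = (1 + ray (1 / 3)) ^ 3 ∧ HD (Φ (KP ha hb hc)) (Φ (KP ha hb hc))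
        fun m => dl m + 3 * dl (m + 2) + 3 * dl (m + 4) + dl (m + 6) := fun ha hb hc => by
    obtain ⟨e⟩ := h1 (KP ha hb hc)
    refine ⟨(grel_sigP 6 _ _).2 (L2d_P_iso e.symm (KP_P hK ha hb hc).1),
      (h2 _).trans (KP_P hK ha hb hc).2,
      h3 _ _ _ ((((K0_HD.eqF ha).eqF hb).eqF hc).congr fun m => ?_)⟩
    simp only [add_assoc]
    norm_num
    ring
  refine ⟨![Φ (KP a0 a0 a0), Φ (KP a0 a1 a1), Φ (KP a1 a1 a2)], fun i => ?_,
    h3 _ _ _ ((((K0_HD.eqF a0).neF a0 a1 n01.symm).neF a0 a1 n01.symm).congr fun m => ?_),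
    h3 _ _ _ ((((K0_HD.neF a1 a0 n01).eqF a1).neF a2 a1 n12).congr fun m => ?_),
    h3 _ _ _ ((((K0_HD.neF a1 a0 n01).neF a1 a0 n01).neF a2 a0 n02).congr fun m => ?_)⟩
  · fin_cases i
    exacts [k _ _ _, k _ _ _, k _ _ _]
  all_goals
    simp only [add_assoc]
    norm_num

end Vale.Agent.P287T.G3.Bs
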